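import Mathlib

/-!
# P202 (Lech): foundations

Finite free complexes encoded by one square matrix, and homology of sub-pairs inside a
differential module with a position grading.
-/

noncomputable section

namespace Vale.Agent.P202

open Matrix

/-- A finite complex of finite free modules over `A`: a finite basis, a position for each basis
vector, and a square-zero matrix lowering the position by one. -/
structure FreeCx (A : Type*) [CommRing A] where
  ι : Type
  [fin : Fintype ι]
  [dec : DecidableEq ι]
  pos : ι → ℕ
  mat : Matrix ι ι A
  mat_pos : ∀ h g, mat h g ≠ 0 → pos g = pos h + 1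
  sq : mat * mat = 0

attribute [instance] FreeCx.fin FreeCx.dec

/-- A `k`-module with a square-zero endomorphism and position pieces. -/
structure Diff (k : Type*) (M : Type*) [CommRing k] [AddCommGroup M] [Module k M] where
  d : M →ₗ[k] M
  deg : ℤ → Submodule k M
  d_d : ∀ x, d (d x) = 0
  d_deg : ∀ (j : ℤ) (x : M), x ∈ deg j → d x ∈ deg (j - 1)

namespace Diff

variable {k : Type*} {M : Type*} [CommRing k] [AddCommGroup M] [Module k M] (D : Diff k M)

/-- A submodule is stable under the differential. -/
def Stable (X : Submodule k M) : Prop := ∀ x ∈ X, D.d x ∈ X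

/-- Relative cycles of the pair `(X, Y)` in position `j`. -/
def cycles (X Y : Submodule k M) (j : ℤ) : Submodule k M := X ⊓ D.deg j ⊓ Y.comap D.d

/-- Relative boundaries of the pair `(X, Y)` in position `j`. -/
def bdries (X Y : Submodule k M) (j : ℤ) : Submodule k M :=
  (X ⊓ D.deg (j + 1)).map D.d ⊔ (Y ⊓ D.deg j)

/-- Relative homology of the pair `(X, Y)` in position `j`. -/
abbrev H (X Y : Submodule k M) (j : ℤ) : Type _ :=
  (D.cycles X Y j) ⧸ (D.bdries X Y j).comap (D.cycles X Y j).subtype

/-- Dimension of the relative homology. -/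
def betti (X Y : Submodule k M) (j : ℤ) : ℕ := Module.finrank k (D.H X Y j)

/-- Finite-dimensional homology, zero outside a bounded range. -/
structure Fin' (X Y : Submodule k M) : Prop where
  finite : ∀ j, Module.Finite k (D.H X Y j)
  bounded : ∃ N : ℕ, ∀ j : ℤ, (j < -(N : ℤ) ∨ (N : ℤ) < j) → Subsingleton (D.H X Y j)

/-- Euler characteristic of the relative homology. -/
def chi (X Y : Submodule k M) : ℤ := ∑ᶠ j : ℤ, (j.negOnePow : ℤ) * (D.betti X Y j : ℤ)

end Diff

namespace FreeCx

section Basic

variable {A : Type*} [CommRing A] (G : FreeCx A)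

/-- Number of basis vectors in position `i`. -/
def rank (i : ℕ) : ℕ := (Finset.univ.filter fun g => G.pos g = i).card

/-- All basis vectors sit in positions at most `D`. -/
def LengthLE (D : ℕ) : Prop := ∀ g, G.pos g ≤ D

/-- All matrix entries lie in the ideal `I`. -/
def EntriesIn (I : Ideal A) : Prop := ∀ h g, G.mat h g ∈ I

variable (M : Type*) [AddCommGroup M] [Module A M]

/-- The differential of `G ⊗ M`. -/
def dA : (G.ι → M) →ₗ[A] (G.ι → M) where
  toFun f h := ∑ g, G.mat h g • f g
  map_add' f f' := by
    funext h
    simp [Finset.sum_add_distrib]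
  map_smul' c f := by
    funext h
    simp [Finset.smul_sum, smul_comm c]

theorem dA_apply (f : G.ι → M) (h : G.ι) : G.dA M f h = ∑ g, G.mat h g • f g := rfl

theorem dA_dA (f : G.ι → M) : G.dA M (G.dA M f) = 0 := by
  funext l
  simp only [dA_apply, Finset.smul_sum, smul_smul, Pi.zero_apply]
  rw [Finset.sum_comm]
  refine Finset.sum_eq_zero fun g _ => ?_
  rw [← Finset.sum_smul]
  have := congrFun (congrFun G.sq l) g
  rw [Matrix.mul_apply] at this
  rw [this]
  simp

variable (k : Type*) [CommRing k] [Algebra k A] [Module k M] [IsScalarTower k A M]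

/-- The differential module `G ⊗ M` over `k`. -/
def diff : Diff k (G.ι → M) where
  d := (G.dA M).restrictScalars k
  deg j :=
    { carrier := {f | ∀ g, (G.pos g : ℤ) ≠ j → f g = 0}
      add_mem' := by
        intro f f' hf hf' g hg
        simp [hf g hg, hf' g hg]
      zero_mem' := by
        intro g _
        rfl
      smul_mem' := by
        intro c f hf g hg
        simp [hf g hg] }
  d_d := G.dA_dA M
  d_deg := by
    intro j f hf h hh
    change G.dA M f h = 0
    rw [dA_apply]
    refine Finset.sum_eq_zero fun g _ => ?_
    by_cases hm : G.mat h g = 0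
    · simp [hm]
    · have hp := G.mat_pos h g hm
      rw [hf g (by omega)]
      simp

/-- Dimension over `k` of the homology of `G ⊗ M`. -/
def homDim (j : ℤ) : ℕ := (G.diff M k).betti ⊤ ⊥ j

/-- The homology of `G ⊗ M` is finite-dimensional over `k`. -/
def FiniteHom : Prop := ∀ j, Module.Finite k ((G.diff M k).H ⊤ ⊥ j)

/-- Euler characteristic over `k` of `G ⊗ M`. -/
def chi : ℤ := (G.diff M k).chi ⊤ ⊥

/-- Base change along a ring homomorphism. -/
def map {B : Type*} [CommRing B] (φ : A →+* B) : FreeCx B where
  ι := G.ι
  pos := G.pos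
  mat := G.mat.map φ
  mat_pos h g hg := by
    refine G.mat_pos h g fun h0 => hg ?_
    simp [Matrix.map_apply, h0]
  sq := by
    rw [← Matrix.map_mul, G.sq]
    ext i j
    simp

/-- The sign of a basis vector. -/
def sgn (g : G.ι) : A := (-1) ^ G.pos g

end Basic

section Constructions

variable {A : Type*} [CommRing A]

/-- Tensor product of two complexes, with the Koszul sign. -/
def tensor (G G' : FreeCx A) : FreeCx A where
  ι := G.ι × G'.ι
  pos p := G.pos p.1 + G'.pos p.2
  mat := Matrix.of fun p q =>
    (if p.2 = q.2 then G.mat p.1 q.1 else 0) +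
      (if p.1 = q.1 then G.sgn p.1 * G'.mat p.2 q.2 else 0)
  mat_pos := by
    rintro ⟨h, h'⟩ ⟨g, g'⟩ hne
    simp only [Matrix.of_apply] at hne
    by_cases h1 : h' = g' ∧ G.mat h g ≠ 0
    · have := G.mat_pos h g h1.2
      have h1' := h1.1
      subst h1'
      simp only
      omega
    · by_cases h2 : h = g ∧ G'.mat h' g' ≠ 0
      · have := G'.mat_pos h' g' h2.2
        have h2' := h2.1
        subst h2'
        simp only
        omega
      · exfalso
        apply hne
        have e1 : (if h' = g' then G.mat h g else 0) = 0 := by
          split_ifs with e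
          · by_contra hc
            exact h1 ⟨e, hc⟩
          · rfl
        have e2 : (if h = g then G.sgn h * G'.mat h' g' else 0) = 0 := by
          split_ifs with e
          · by_cases hc : G'.mat h' g' = 0
            · simp [hc]
            · exact absurd ⟨e, hc⟩ h2
          · rfl
        rw [e1, e2, add_zero]
  sq := by
    ext ⟨a, a'⟩ ⟨c, c'⟩
    rw [Matrix.mul_apply, Matrix.zero_apply, Fintype.sum_prod_type]
    simp only [Matrix.of_apply, add_mul, mul_add, Finset.sum_add_distrib]
    simp only [ite_mul, zero_mul, mul_ite, mul_zero, Finset.sum_ite_eq, Finset.sum_ite_eq',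
      Finset.mem_univ, if_true, Finset.sum_ite_irrel, Finset.sum_const_zero]
    have hA : ∑ x, G.mat a x * G.mat x c = 0 := by
      simpa [Matrix.mul_apply] using congrFun (congrFun G.sq a) c
    have hB : ∑ x, G'.mat a' x * G'.mat x c' = 0 := by
      simpa [Matrix.mul_apply] using congrFun (congrFun G'.sq a') c'
    have hs : G.sgn a * G.sgn a = 1 := by
      simp [sgn, ← pow_add, ← two_mul, pow_mul]
    have hB' : ∑ x, G.sgn a * G'.mat a' x * (G.sgn a * G'.mat x c') = 0 := by
      have : ∀ x, G.sgn a * G'.mat a' x * (G.sgn a * G'.mat x c')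
          = (G.sgn a * G.sgn a) * (G'.mat a' x * G'.mat x c') := fun x => by ring
      simp only [this, ← Finset.mul_sum, hB, mul_zero]
    have hmix : G.mat a c * (G.sgn c * G'.mat a' c') +
        G.sgn a * G'.mat a' c' * G.mat a c = 0 := by
      by_cases h0 : G.mat a c = 0
      · simp [h0]
      · have := G.mat_pos a c h0
        rw [show G.sgn c = - G.sgn a by simp [sgn, this, pow_succ]]
        ring
    by_cases hac : a = c
    · subst hac
      simp only [hA, hB', if_true, ite_self]
      linear_combination hmix
    · simp only [hA, if_neg hac, ite_self]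
      linear_combination hmix

/-- The complex with one basis vector in position `0`. -/
def one (A : Type*) [CommRing A] : FreeCx A where
  ι := Unit
  pos _ := 0
  mat := 0
  mat_pos h g hg := absurd rfl hg
  sq := by simp

/-- The two-term complex `z : A → A`. -/
def koszul1 (z : A) : FreeCx A where
  ι := Fin 2
  pos i := i.val
  mat := !![0, z; 0, 0]
  mat_pos := by
    intro h g hg
    fin_cases h <;> fin_cases g <;> simp at hg ⊢
  sq := by
    ext i j
    fin_cases i <;> fin_cases j <;> simp [Matrix.mul_apply, Fin.sum_univ_two]

/-- The Koszul complex of a list of elements. -/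
def koszul : List A → FreeCx A
  | [] => one A
  | z :: zs => (koszul zs).tensor (koszul1 z)

end Constructions

end FreeCx

end Vale.Agent.P202
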