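import Vale.Agent.P202.Segre.Defs

/-!
# P202: the combinatorial inequality for the window sums

The values `pFun t`, `-n * K < t ≤ 0`, split into `n` blocks of length `K` with alternating sign
whose absolute sums decrease up to the middle block and increase afterwards, so their alternating
partial sums lie alternately on the two sides of the middle one.
-/

namespace Vale.Agent.P202.Segre

open Finset

variable (n K : ℕ)

/-- The absolute value of `pFun (-s)`. -/
def qFun (s : ℕ) : ℤ := ∏ a : Fin n, |(s : ℤ) - (a.val : ℤ) * K|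

/-- The absolute sum over one block. -/
def block (i : ℕ) : ℤ := ∑ r ∈ range K, qFun n K (i * K + r)

/-- The alternating partial sums of the blocks. -/
def altSum (m : ℕ) : ℤ := ∑ i ∈ range m, (-1) ^ i * block n K i

lemma qFun_nonneg (s : ℕ) : 0 ≤ qFun n K s := prod_nonneg fun _ _ => abs_nonneg _

lemma qFun_mul_self (i : ℕ) (hi : i < n) : qFun n K (i * K) = 0 :=
  prod_eq_zero (mem_univ (⟨i, hi⟩ : Fin n)) (by simp)

lemma qFun_shift (s : ℕ) :
    qFun n K (s + K) * |(s : ℤ) - ((n : ℤ) - 1) * K| = qFun n K s * ((s : ℤ) + K) := by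
  rcases n with _ | m
  · simp [qFun]
    positivity
  · simp only [qFun]
    rw [Fin.prod_univ_succ, Fin.prod_univ_castSucc]
    simp only [Fin.val_zero, Fin.val_succ, Fin.val_castSucc, Fin.val_last]
    have h : ∀ a : Fin m, ((s + K : ℕ) : ℤ) - ((a.val + 1 : ℕ) : ℤ) * K
        = (s : ℤ) - (a.val : ℤ) * K := fun a => by push_cast; ring
    simp only [h]
    push_cast
    rw [abs_of_nonneg (show (0 : ℤ) ≤ (s : ℤ) + K - 0 * K by simp; positivity)]
    ring_nf

lemma qFun_reflect (s : ℕ) (hs : s ≤ (n - 1) * K) : qFun n K ((n - 1) * K - s) = qFun n K s := by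
  simp only [qFun]
  rw [← Equiv.prod_comp Fin.revPerm]
  refine prod_congr rfl fun a _ => ?_
  rw [Fin.revPerm_apply, Fin.val_rev]
  have ha := a.2
  rw [show n - (a.val + 1) = n - 1 - a.val by omega, Nat.cast_sub hs,
    Nat.cast_sub (show a.val ≤ n - 1 by omega)]
  push_cast
  rw [← abs_neg]
  congr 1
  ring

lemma qFun_succ_le (i r : ℕ) (hi : 2 * i + 4 ≤ n) (hr : r < K) :
    qFun n K ((i + 1) * K + r) ≤ qFun n K (i * K + r) := by
  have h := qFun_shift n K (i * K + r)
  rw [show (i + 1) * K + r = i * K + r + K by ring]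
  push_cast at h
  have hn : (2 * (i : ℤ) + 4) * K ≤ (n : ℤ) * K :=
    mul_le_mul_of_nonneg_right (by exact_mod_cast hi) (by positivity)
  have hrK : (r : ℤ) < K := by exact_mod_cast hr
  rw [abs_of_nonpos (by nlinarith)] at h
  have hpos : (0 : ℤ) < (i : ℤ) * K + r + K := by
    have : (0 : ℤ) ≤ (i : ℤ) * K := by positivity
    linarith [Int.natCast_nonneg r]
  refine le_of_mul_le_mul_right ?_ hpos
  calc qFun n K (i * K + r + K) * ((i : ℤ) * K + r + K)
      ≤ qFun n K (i * K + r + K) * (-((i : ℤ) * K + r - ((n : ℤ) - 1) * K)) :=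
        mul_le_mul_of_nonneg_left (by nlinarith) (qFun_nonneg n K _)
    _ = _ := h

lemma le_qFun_succ (i r : ℕ) (hi : n ≤ 2 * i + 2) (hr : r < K) :
    qFun n K (i * K + r) ≤ qFun n K ((i + 1) * K + r) := by
  have h := qFun_shift n K (i * K + r)
  rw [show (i + 1) * K + r = i * K + r + K by ring]
  push_cast at h
  have hn : (n : ℤ) * K ≤ (2 * (i : ℤ) + 2) * K :=
    mul_le_mul_of_nonneg_right (by exact_mod_cast hi) (by positivity)
  have hpos : (0 : ℤ) < (i : ℤ) * K + r + K := by
    have : (0 : ℤ) < K := by exact_mod_cast (lt_of_le_of_lt (Nat.zero_le r) hr)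
    positivity
  refine le_of_mul_le_mul_right ?_ hpos
  rw [← h]
  refine mul_le_mul_of_nonneg_left (abs_le.2 ⟨?_, ?_⟩) (qFun_nonneg n K _) <;> nlinarith

lemma block_eq_middle (i : ℕ) (hi : 2 * i + 3 = n) : block n K (i + 1) = block n K i := by
  have e : ∀ j, j + 1 < n → block n K j = ∑ r ∈ range (K + 1), qFun n K (j * K + r) := by
    intro j hj
    rw [sum_range_succ, show j * K + K = (j + 1) * K by ring, qFun_mul_self n K _ hj, add_zero,
      block]
  rw [e i (by omega), e (i + 1) (by omega), ← sum_range_reflect _ (K + 1)]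
  refine sum_congr rfl fun r hr => ?_
  rw [mem_range] at hr
  have hn : (n - 1) * K = i * K + K + (i * K + K) := by
    rw [show n - 1 = i + 1 + (i + 1) by omega]; ring
  rw [← qFun_reflect n K (i * K + r) (by omega)]
  congr 1
  rw [hn, show (i + 1) * K = i * K + K by ring]
  omega

lemma block_succ_le (i : ℕ) (hi : 2 * i + 3 ≤ n) : block n K (i + 1) ≤ block n K i := by
  rcases eq_or_lt_of_le hi with h | h
  · exact (block_eq_middle n K i h).le
  · exact sum_le_sum fun r hr => qFun_succ_le n K i r (by omega) (mem_range.1 hr)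

lemma le_block_succ (i : ℕ) (hi : n ≤ 2 * i + 2) : block n K i ≤ block n K (i + 1) :=
  sum_le_sum fun r hr => le_qFun_succ n K i r hi (mem_range.1 hr)

lemma block_nonneg (i : ℕ) : 0 ≤ block n K i := sum_nonneg fun _ _ => qFun_nonneg n K _

/-- The partial sums lie alternately on the two sides of the middle one. -/
lemma altSum_alternates (m : ℕ) :
    0 ≤ (-1) ^ (m + 1) * (altSum n K m - altSum n K ((n - 1) / 2)) := by
  set μ := (n - 1) / 2 with hμ
  set C := altSum n K μ
  have rec' : ∀ m, (-1 : ℤ) ^ (m + 1 + 1) * (altSum n K (m + 1) - C) =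
      block n K m - (-1) ^ (m + 1) * (altSum n K m - C) := by
    intro m
    rw [altSum, sum_range_succ, ← altSum, pow_succ, pow_succ]
    rcases neg_one_pow_eq_or ℤ m with h | h <;> rw [h] <;> ring
  rcases le_total m μ with hm | hm
  · suffices H : 0 ≤ (-1) ^ (m + 1) * (altSum n K m - C) ∧
        (-1) ^ (m + 1) * (altSum n K m - C) ≤ block n K m from H.1
    induction hm using Nat.decreasingInduction with
    | self => simp [C, block_nonneg]
    | of_succ m hm ih =>
      have h1 := rec' m
      have h2 := block_succ_le n K m (by omega)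
      constructor <;> linarith [ih.1, ih.2]
  · suffices H : 0 ≤ (-1) ^ (m + 1) * (altSum n K m - C) ∧
        (-1) ^ (m + 1) * (altSum n K m - C) ≤ block n K m from H.1
    induction m, hm using Nat.le_induction with
    | base => simp [C, block_nonneg]
    | succ m hm ih =>
      have h1 := rec' m
      have h2 := le_block_succ n K m (by omega)
      constructor <;> linarith [ih.1, ih.2]

lemma pFun_neg (i r : ℕ) (hi : i < n) (hr : r < K) :
    pFun n K (-((i * K + r : ℕ) : ℤ)) = (-1) ^ (i + 1) * qFun n K (i * K + r) := by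
  have hcard : ((univ : Finset (Fin n)).filter fun a => a.val ≤ i).card = i + 1 := by
    rw [show ((univ : Finset (Fin n)).filter fun a => a.val ≤ i) = Finset.Iic ⟨i, hi⟩ by
      ext a; simp [Fin.le_def], Fin.card_Iic]
  rw [pFun, qFun, ← hcard, ← prod_const, ← prod_filter_mul_prod_filter_not univ
    (fun a : Fin n => a.val ≤ i) (fun a => |((i * K + r : ℕ) : ℤ) - (a.val : ℤ) * K|),
    ← mul_assoc, ← prod_mul_distrib, ← prod_filter_mul_prod_filter_not univ
    (fun a : Fin n => a.val ≤ i) (fun a => -((i * K + r : ℕ) : ℤ) + (a.val : ℤ) * K)]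
  congr 1
  · refine prod_congr rfl fun a ha => ?_
    have h : (a.val : ℤ) * K ≤ (i : ℤ) * K :=
      mul_le_mul_of_nonneg_right (by exact_mod_cast (mem_filter.1 ha).2) (by positivity)
    rw [abs_of_nonneg (by push_cast; linarith)]
    ring
  · refine prod_congr rfl fun a ha => ?_
    have h : ((i : ℤ) + 1) * K ≤ (a.val : ℤ) * K :=
      mul_le_mul_of_nonneg_right (by exact_mod_cast (not_le.1 (mem_filter.1 ha).2)) (by positivity)
    have hrK : (r : ℤ) < K := by exact_mod_cast hr
    rw [abs_of_nonpos (by push_cast; nlinarith)]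
    ring

lemma sFun_eq_altSum (m : ℕ) (hm : m ≤ n) : sFun n K m = altSum n K m := by
  have h0 : ∀ N : ℕ, ∑ t ∈ Ioc (-(N : ℤ)) 0, pFun n K t = ∑ s ∈ range N, pFun n K (-(s : ℤ)) := by
    intro N
    refine sum_nbij' (fun t => (-t).toNat) (fun s => -(s : ℤ)) ?_ ?_ ?_ ?_ ?_ <;>
      intro t ht <;> simp at ht ⊢ <;> try omega
    congr 1; omega
  rw [sFun, h0]
  induction m with
  | zero => simp [altSum]
  | succ i ih =>
    rw [show (i + 1) * K = i * K + K by ring, sum_range_add, neg_add, ih (by omega), altSum,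
      altSum, sum_range_succ]
    congr 1
    rw [block, mul_sum, ← sum_neg_distrib]
    refine sum_congr rfl fun r hr => ?_
    rw [pFun_neg n K i r (by omega) (mem_range.1 hr), pow_succ]
    ring

lemma qFun_le_pFun (s : ℕ) : qFun n K s ≤ pFun n K (s : ℤ) := by
  refine prod_le_prod (fun a _ => abs_nonneg _) fun a _ => abs_le.2 ⟨?_, ?_⟩ <;>
    nlinarith [show (0 : ℤ) ≤ (a.val : ℤ) * K by positivity, Int.natCast_nonneg s]

lemma pFun_self : pFun n K (K : ℤ) = (n.factorial : ℤ) * (K : ℤ) ^ n := by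
  have : ∀ a : Fin n, (K : ℤ) + (a.val : ℤ) * K = ((a.val + 1 : ℕ) : ℤ) * K := fun a => by
    push_cast; ring
  simp only [pFun, this, prod_mul_distrib, prod_const, card_univ, Fintype.card_fin]
  congr 1
  rw [Fin.prod_univ_eq_prod_range (fun a => ((a + 1 : ℕ) : ℤ)) n, ← Nat.cast_prod,
    prod_range_add_one_eq_factorial]

lemma block_zero_add_le_mainSum (hn : 1 ≤ n) (hK : 1 ≤ K) :
    block n K 0 + (n.factorial : ℤ) * (K : ℤ) ^ n ≤ mainSum n K := by
  obtain ⟨L, rfl⟩ : ∃ L, K = L + 1 := ⟨K - 1, by omega⟩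
  have h0 : mainSum n (L + 1) = ∑ s ∈ range (L + 1), pFun n (L + 1) ((s + 1 : ℕ) : ℤ) := by
    refine sum_nbij' (fun t => (t - 1).toNat) (fun s => ((s + 1 : ℕ) : ℤ)) ?_ ?_ ?_ ?_ ?_ <;>
      intro t ht <;> simp at ht ⊢ <;> try omega
    congr 1; omega
  rw [h0, sum_range_succ, pFun_self, block, sum_range_succ',
    Nat.add_zero (0 * (L + 1)), qFun_mul_self n (L + 1) 0 (by omega), add_zero]
  gcongr with s hs
  simpa using qFun_le_pFun n (L + 1) (s + 1)

/-- The combinatorial input of the weak bound. -/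
theorem exists_alternation (hn : 1 ≤ n) (hK : 1 ≤ K) :
    ∃ C : ℤ, (∀ i ∈ Icc 1 (n + 1), 0 ≤ (-1) ^ i * (sFun n K (i - 1) - C)) ∧
      (n.factorial : ℤ) * (K : ℤ) ^ n ≤ mainSum n K - C := by
  refine ⟨altSum n K ((n - 1) / 2), fun i hi => ?_, ?_⟩
  · rw [mem_Icc] at hi
    obtain ⟨m, rfl⟩ : ∃ m, i = m + 1 := ⟨i - 1, by omega⟩
    rw [Nat.add_sub_cancel, sFun_eq_altSum n K m (by omega)]
    exact altSum_alternates n K m
  · have h := altSum_alternates n K 1
    have h1 : altSum n K 1 = block n K 0 := by simp [altSum]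
    rw [h1] at h
    norm_num at h
    have := block_zero_add_le_mainSum n K hn hK
    linarith

end Vale.Agent.P202.Segre
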