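import Vale.Agent.P202.Comb

/-!
# P202: the core bound from its three ingredients

`coreBound_of` turns the weak bound and the squaring construction into the sharp bound
`rank 0 * K ^ D ≤ chi`; `weakBound_of` deduces the weak bound from the window inequality.
-/

noncomputable section

namespace Vale.Agent.P202

open Finset

universe u

variable {k : Type u} [Field k]

/-- The power series ring in `D` variables. -/
abbrev PS (k : Type u) [Field k] (D : ℕ) : Type u := MvPowerSeries (Fin D) k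

/-- A complex over power series of length at most `D` with entries in `m ^ K` and
finite-dimensional homology. -/
structure Admissible {D : ℕ} (K : ℕ) (G : FreeCx (PS k D)) : Prop where
  length : G.LengthLE D
  entries : G.EntriesIn (IsLocalRing.maximalIdeal (PS k D) ^ K)
  finite : G.FiniteHom (PS k D) k

/-- The alternation inequality applied to a window inequality. -/
theorem weakBound_of {A : Type*} [CommRing A] (G : FreeCx A) (n K : ℕ) (hn : 1 ≤ n) (hK : 1 ≤ K)
    (χ χU : ℤ) (hL : G.LengthLE (n + 1)) (heuler : ∑ g : G.ι, (-1 : ℤ) ^ G.pos g = 0)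
    (hU : χU = χ * (n.factorial : ℤ))
    (hwin : (G.rank 0 : ℤ) * Segre.mainSum n K +
      ∑ i ∈ Icc 1 (n + 1), (-1) ^ i * (G.rank i : ℤ) * Segre.sFun n K (i - 1) ≤ χU) :
    (G.rank 0 : ℤ) * (K : ℤ) ^ n ≤ χ := by
  obtain ⟨C, hC, hmain⟩ := Segre.exists_alternation n K hn hK
  have he : ∑ i ∈ range (n + 2), (-1 : ℤ) ^ i * (G.rank i : ℤ) = 0 := by
    rw [← heuler, ← sum_fiberwise_of_maps_to (t := range (n + 2)) (g := G.pos)
      (fun g _ => mem_range.2 (Nat.lt_succ_of_le (hL g)))]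
    refine sum_congr rfl fun i _ => ?_
    rw [sum_congr rfl (fun g hg => by rw [(mem_filter.1 hg).2] :
      ∀ g ∈ univ.filter (fun g => G.pos g = i), (-1 : ℤ) ^ G.pos g = (-1) ^ i),
      sum_const, nsmul_eq_mul, FreeCx.rank]
    ring
  rw [range_eq_Ico, ← sum_Ico_consecutive _ (show 0 ≤ 1 by omega) (show 1 ≤ n + 2 by omega),
    show Ico 0 1 = ({0} : Finset ℕ) from rfl, sum_singleton, pow_zero, one_mul,
    show Ico 1 (n + 2) = Icc 1 (n + 1) from by
      ext i; simp only [mem_Ico, mem_Icc]; omega] at he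
  have hsplit : ∑ i ∈ Icc 1 (n + 1), (-1 : ℤ) ^ i * (G.rank i : ℤ) * Segre.sFun n K (i - 1) =
      ∑ i ∈ Icc 1 (n + 1), (G.rank i : ℤ) * ((-1) ^ i * (Segre.sFun n K (i - 1) - C)) +
        C * ∑ i ∈ Icc 1 (n + 1), (-1 : ℤ) ^ i * (G.rank i : ℤ) := by
    rw [mul_sum, ← sum_add_distrib]
    exact sum_congr rfl fun i _ => by ring
  have hnonneg : 0 ≤ ∑ i ∈ Icc 1 (n + 1),
      (G.rank i : ℤ) * ((-1) ^ i * (Segre.sFun n K (i - 1) - C)) :=
    sum_nonneg fun i hi => mul_nonneg (Int.natCast_nonneg _) (hC i hi)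
  have h0 := mul_le_mul_of_nonneg_left hmain (Int.natCast_nonneg (G.rank 0))
  refine le_of_mul_le_mul_right ?_ (show (0 : ℤ) < n.factorial by exact_mod_cast n.factorial_pos)
  rw [← hU]
  have hz : ∑ i ∈ Icc 1 (n + 1), (-1 : ℤ) ^ i * (G.rank i : ℤ) = -(G.rank 0 : ℤ) := by linarith
  rw [hz] at hsplit
  linarith

/-- A complex of length one over a power series ring has nonnegative Euler characteristic. -/
theorem chi_nonneg_of_lengthLE_one {D : ℕ} (hD : 1 ≤ D) (G : FreeCx (PS k D))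
    (hL : G.LengthLE 1) (hfin : G.FiniteHom (PS k D) k) : 0 ≤ G.chi (PS k D) k := by
  set Δ := G.diff (PS k D) k with hΔ
  have hdeg : ∀ (j : ℤ), (j < 0 ∨ 1 < j) → ∀ f ∈ Δ.deg j, f = 0 := fun j hj f hf =>
    funext fun g => hf g (by have := hL g; omega)
  have hsub : ∀ j : ℤ, j ≠ 0 → Δ.betti ⊤ ⊥ j = 0 := by
    intro j hj
    suffices h : Δ.cycles ⊤ ⊥ j = ⊥ by
      have hs : Subsingleton (Δ.cycles ⊤ ⊥ j) := Submodule.subsingleton_iff_eq_bot.2 h
      exact Module.finrank_zero_of_subsingleton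
    refine eq_bot_iff.2 fun f hf => ?_
    simp only [Diff.cycles, top_inf_eq, Submodule.mem_inf, Submodule.mem_comap,
      Submodule.mem_bot] at hf
    rw [Submodule.mem_bot]
    by_cases hj1 : j = 1
    swap
    · exact hdeg j (by omega) f hf.1
    subst hj1
    have hb : (Δ.bdries ⊤ ⊥ 1).comap (Δ.cycles ⊤ ⊥ 1).subtype = ⊥ := by
      rw [eq_bot_iff]
      intro x hx
      have h2 : Δ.deg (1 + 1) = ⊥ := eq_bot_iff.2 fun g hg => by
        rw [Submodule.mem_bot]; exact hdeg _ (by omega) g hg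
      simp only [Diff.bdries, top_inf_eq, bot_inf_eq, sup_bot_eq, h2, Submodule.map_bot,
        Submodule.mem_comap, Submodule.mem_bot, Submodule.coe_subtype] at hx
      simpa using hx
    have : Module.Finite k (Δ.cycles ⊤ ⊥ 1) :=
      @Module.Finite.equiv _ _ _ _ _ _ _ _ (hfin 1) (Submodule.quotEquivOfEqBot _ hb)
    let x0 : PS k D := MvPowerSeries.X ⟨0, hD⟩
    have hmem : ∀ a : PS k D, a • f ∈ Δ.cycles ⊤ ⊥ 1 := by
      intro a
      simp only [Diff.cycles, top_inf_eq, Submodule.mem_inf, Submodule.mem_comap,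
        Submodule.mem_bot]
      refine ⟨fun g hg => by rw [Pi.smul_apply, hf.1 g hg, smul_zero], ?_⟩
      change G.dA (PS k D) (a • f) = 0
      rw [map_smul, show G.dA (PS k D) f = 0 from hf.2, smul_zero]
    let φ : Polynomial k →ₗ[k] Δ.cycles ⊤ ⊥ 1 :=
      { toFun := fun q => ⟨Polynomial.aeval x0 q • f, hmem _⟩
        map_add' := fun q q' => Subtype.ext (by simp [add_smul])
        map_smul' := fun c q => Subtype.ext (by simp [smul_assoc]) }
    have hninj : ¬ Function.Injective φ := fun h =>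
      Polynomial.not_finite (R := k) (Module.Finite.of_injective φ h)
    obtain ⟨q, hq0, hq⟩ : ∃ q, φ q = 0 ∧ q ≠ 0 := by
      simpa [← LinearMap.ker_eq_bot, Submodule.eq_bot_iff] using hninj
    have hne : Polynomial.aeval x0 q ≠ 0 := by
      have e : Polynomial.aeval x0 q =
          ((Polynomial.aeval (MvPolynomial.X (⟨0, hD⟩ : Fin D) : MvPolynomial (Fin D) k) q :
            MvPolynomial (Fin D) k) : PS k D) := by
        simpa [x0, MvPolynomial.coeToMvPowerSeries.algHom_apply] using (Polynomial.aeval_algHom_apply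
          (MvPolynomial.coeToMvPowerSeries.algHom k)
          (MvPolynomial.X (⟨0, hD⟩ : Fin D) : MvPolynomial (Fin D) k) q)
      rw [e]
      refine fun h => hq (transcendental_iff.1 (MvPolynomial.transcendental_X k (⟨0, hD⟩ : Fin D)) q ?_)
      exact MvPolynomial.coe_inj.1 (h.trans MvPolynomial.coe_zero.symm)
    funext g
    have := congrFun (congrArg Subtype.val hq0) g
    exact (mul_eq_zero.1 this).resolve_left hne
  rw [FreeCx.chi, Diff.chi, finsum_eq_single _ 0 fun j hj => by rw [hsub j hj]; simp]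
  simp

/-- Exponential growth beats a constant factor. -/
theorem le_of_pow_le_mul_pow {a b : ℤ} {c : ℕ} (hb : 0 ≤ b)
    (h : ∀ s : ℕ, a ^ 2 ^ s ≤ c * b ^ 2 ^ s) : a ≤ b := by
  by_contra hab
  have hab' : b + 1 ≤ a := by omega
  obtain ⟨s, hs⟩ : ∃ s : ℕ, c * b.toNat + 1 ≤ 2 ^ s := ⟨_, Nat.lt_two_pow_self⟩
  rcases hb.eq_or_lt with rfl | hb'
  · have h0 : 0 < a ^ 2 ^ 0 := by simpa using (show 0 < a by omega)
    have := h 0
    simp at this
    omega
  obtain ⟨N, hN⟩ : ∃ N, 2 ^ s = N + 1 := ⟨2 ^ s - 1, by omega⟩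
  have h2 : (c : ℤ) * b < (N : ℤ) + 1 := by
    have : ((c * b.toNat + 1 : ℕ) : ℤ) ≤ ((N + 1 : ℕ) : ℤ) := by exact_mod_cast hN ▸ hs
    push_cast [Int.toNat_of_nonneg hb] at this
    linarith
  have h3 : b ^ (N + 1) + ((N : ℤ) + 1) * b ^ N ≤ (b + 1) ^ (N + 1) := by
    clear h2 hN
    induction N with
    | zero => simp
    | succ m ih =>
      have := mul_le_mul_of_nonneg_right ih (show (0 : ℤ) ≤ b + 1 by linarith)
      rw [pow_succ (b + 1), pow_succ b (m + 1)]
      push_cast at this ⊢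
      rw [pow_succ b m] at this ⊢
      nlinarith [show (0 : ℤ) ≤ ((m : ℤ) + 1) * b ^ m by positivity]
  have h4 := (pow_le_pow_left₀ (show (0 : ℤ) ≤ b + 1 by linarith) hab' (N + 1)).trans
    ((le_of_eq (by rw [hN])).trans (h s))
  rw [hN, pow_succ b N] at h4
  rw [pow_succ b N] at h3
  nlinarith [show (0 : ℤ) < b ^ N by positivity]

/-- The sharp bound from the weak bound and the squaring construction. -/
theorem coreBound_of (K : ℕ) (hK : 1 ≤ K)
    (weak : ∀ n : ℕ, 1 ≤ n → ∀ G : FreeCx (PS k (n + 1)), Admissible K G →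
      (G.rank 0 : ℤ) * (K : ℤ) ^ n ≤ G.chi (PS k (n + 1)) k)
    (square : ∀ D : ℕ, 1 ≤ D → ∀ G : FreeCx (PS k D), Admissible K G →
      ∃ G₂ : FreeCx (PS k (D + D)), Admissible K G₂ ∧
        G₂.chi (PS k (D + D)) k = G.chi (PS k D) k ^ 2 ∧ G₂.rank 0 = G.rank 0 ^ 2)
    {D : ℕ} (hD : 1 ≤ D) (G : FreeCx (PS k D)) (hG : Admissible K G) :
    (G.rank 0 : ℤ) * (K : ℤ) ^ D ≤ G.chi (PS k D) k := by
  have iter : ∀ (s D : ℕ), 2 ≤ D → ∀ G : FreeCx (PS k D), Admissible K G →
      (G.rank 0 : ℤ) ^ 2 ^ s * (K : ℤ) ^ (2 ^ s * D - 1) ≤ G.chi (PS k D) k ^ 2 ^ s := by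
    intro s
    induction s with
    | zero =>
      intro D hD G hG
      obtain ⟨n, rfl⟩ : ∃ n, D = n + 1 := ⟨D - 1, by omega⟩
      simpa using weak n (by omega) G hG
    | succ s ih =>
      intro D hD G hG
      obtain ⟨G₂, hG₂, hc, hr⟩ := square D (by omega) G hG
      have := ih (D + D) (by omega) G₂ hG₂
      rw [hc, hr, Nat.cast_pow, ← pow_mul, ← pow_mul] at this
      rw [pow_succ', show 2 * 2 ^ s * D = 2 ^ s * (D + D) by ring]
      exact this
  obtain ⟨G₂, hG₂, hc, hr⟩ := square D hD G hG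
  have key : ((G.rank 0 : ℤ) * (K : ℤ) ^ D) ^ 2 ≤ G.chi (PS k D) k ^ 2 := by
    refine le_of_pow_le_mul_pow (c := K) (sq_nonneg _) fun s => ?_
    have h := iter s (D + D) (by omega) G₂ hG₂
    rw [hc, hr, Nat.cast_pow] at h
    refine le_trans (le_of_eq ?_) (mul_le_mul_of_nonneg_left h (Int.natCast_nonneg K))
    rw [mul_pow, mul_pow, mul_left_comm, ← pow_succ' (K : ℤ),
      show 2 ^ s * (D + D) - 1 + 1 = 2 ^ s * (D + D) by
        have : 1 ≤ 2 ^ s * (D + D) := one_le_mul (Nat.one_le_two_pow) (by omega)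
        omega]
    ring
  have hchi : 0 ≤ G.chi (PS k D) k := by
    rcases eq_or_lt_of_le hD with rfl | h
    · exact chi_nonneg_of_lengthLE_one le_rfl G hG.length hG.finite
    · obtain ⟨n, rfl⟩ : ∃ n, D = n + 1 := ⟨D - 1, by omega⟩
      exact le_trans (by positivity) (weak n (by omega) G hG)
  exact (pow_le_pow_iff_left₀ (by positivity) hchi two_ne_zero).1 key

end Vale.Agent.P202
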