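import Vale.Agent.P202.Window
import Vale.Agent.P202.Segre.KoszulU
import Vale.Agent.P202.Diag.ChiDiag
import Vale.Agent.P202.Diag.Square

/-!
# P202: the core bound `rank 0 * K ^ D ≤ chi`
-/

noncomputable section

namespace Vale.Agent.P202

universe u

variable {k : Type u} [Field k]

/-- The weak bound over `n + 1` variables. -/
theorem weakBound {n K : ℕ} (hn : 1 ≤ n) (hK : 1 ≤ K) (G : FreeCx (PS k (n + 1)))
    (hG : Admissible K G) : (G.rank 0 : ℤ) * (K : ℤ) ^ n ≤ G.chi (PS k (n + 1)) k := by
  have := Segre.comp_none_finite (k := k) (n := n) K (by omega)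
  have hfin := (Diag.chi_diag G hG.finite (Segre.comp k n K none)).2.1
  have hkos : (FreeCx.koszul (Diag.vars k (n + 1))).chi (Segre.comp k n K none) k =
      (n.factorial : ℤ) := by
    refine Segre.koszul_chi K (by omega) _ ?_ (by simp [Diag.vars]) hfin
    intro a ha
    obtain ⟨i, rfl⟩ := List.mem_ofFn.1 ha
    exact Segre.Lin.X i
  exact weakBound_of G n K hn hK (G.chi (PS k (n + 1)) k) _ hG.length
    (Diag.euler_zero (by omega) G hG.finite)
    (Diag.chi_eq_mul G hG.finite (Segre.comp k n K none) hkos) (Window.window hn hK G hG)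

/-- CORE: a complex of length at most `D` over power series in `D` variables with entries in
`m ^ K` and finite-dimensional homology has Euler characteristic at least `rank 0 * K ^ D`. -/
theorem coreBound {D K : ℕ} (hD : 1 ≤ D) (hK : 1 ≤ K) (G : FreeCx (PS k D))
    (hG : Admissible K G) : (G.rank 0 : ℤ) * (K : ℤ) ^ D ≤ G.chi (PS k D) k :=
  coreBound_of K hK (fun _ hn G hG => weakBound hn hK G hG)
    (fun D _ G hG => Diag.square K D G hG) hD G hG

end Vale.Agent.P202
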