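import Vale.Agent.P202.Zero.General
import Vale.Agent.P202.Imperfect.General

/-!
# P202: Lech's inequality in equal characteristic
-/

noncomputable section

namespace Vale.Agent.P202

open IsLocalRing Filter

universe u v

/-- Lech's inequality for every flat local map out of a Noetherian local ring containing a field. -/
theorem lech_equalChar {k : Type v} [Field k] (R : Type u) [CommRing R] [IsNoetherianRing R]
    [IsLocalRing R] (ι : k →+* R) (S : Type u) [CommRing S] [IsNoetherianRing S] [IsLocalRing S]
    [Algebra R S] [IsLocalHom (algebraMap R S)] [Module.Flat R S] :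
    limsup (hsSeq R) atTop ≤ liminf (hsSeq S) atTop := by
  obtain ⟨p, hp⟩ := CharP.exists k
  rcases CharP.char_is_prime_or_zero k p with hprime | rfl
  · have : Fact p.Prime := ⟨hprime⟩
    have : CharP R p := charP_of_injective_ringHom ι.injective p
    exact Imperfect.lech_charP_all p R S
  · have : CharZero k := CharP.charP_to_charZero k
    let : Algebra ℚ R := (ι.comp (algebraMap ℚ k)).toAlgebra
    exact Zero.lech_zero R S

end Vale.Agent.P202
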