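import Vale.Agent.P202.EqualChar

/-!
# P202: hyperplane sections

For a regular element `x` in the `o`-th power of the maximal ideal, `o * e(R) <= e(R / xR)`. With
Lech's inequality in equal characteristic this bounds `o * e(R)` by `e(S / xS)` when `R / xR`
contains a field, in particular for `x = p` in mixed characteristic.
-/

noncomputable section

namespace Vale.Agent.P202

open IsLocalRing Filter
open scoped ENNReal Topology

universe u v

section Length

variable {R : Type u} [CommRing R] [IsNoetherianRing R] [IsLocalRing R] {x : R}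
  [IsLocalRing (R ⧸ Ideal.span {x})]

/-- One step of the Hilbert function along multiplication by `x`. -/
theorem qlen_pow_le_add {o : ℕ} (hx : x ∈ maximalIdeal R ^ o) {N : ℕ} (hN : o ≤ N) :
    qlen (maximalIdeal R ^ N) ≤
      qlen (maximalIdeal R ^ (N - o)) + qlen (maximalIdeal (R ⧸ Ideal.span {x}) ^ N) := by
  set m := maximalIdeal R
  set Rb := R ⧸ Ideal.span {x}
  set I := Ideal.span {x} ⊔ m ^ N
  have e1 := length_quotient_eq_add (show m ^ N ≤ I from le_sup_right)
  have h1 : Module.length R (Submodule.map (m ^ N).mkQ I) ≤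
      Module.length R (R ⧸ m ^ (N - o)) := by
    let f : R ⧸ m ^ (N - o) →ₗ[R] R ⧸ m ^ N :=
      Submodule.mapQ _ _ (LinearMap.mulLeft R x) fun a ha => by
        have h := Ideal.mul_mem_mul hx ha
        rwa [← pow_add, Nat.add_sub_cancel' hN] at h
    have hf : LinearMap.range f = Submodule.map (m ^ N).mkQ I := by
      ext q
      obtain ⟨a, rfl⟩ := Submodule.mkQ_surjective _ q
      constructor
      · rintro ⟨b, hb⟩
        obtain ⟨b, rfl⟩ := Submodule.mkQ_surjective _ b
        rw [← hb]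
        exact ⟨x * b, Ideal.mem_sup_left (Ideal.mem_span_singleton.2 ⟨b, rfl⟩), rfl⟩
      · rintro ⟨b, hb, hab⟩
        obtain ⟨s, hs, t, ht, rfl⟩ := Submodule.mem_sup.1 hb
        obtain ⟨c, rfl⟩ := Ideal.mem_span_singleton.1 hs
        refine ⟨Submodule.Quotient.mk c, ?_⟩
        rw [← hab, map_add, show (m ^ N).mkQ t = 0 from (Submodule.Quotient.mk_eq_zero _).2 ht, add_zero]
        rfl
    rw [← hf]
    exact Module.length_le_of_surjective f.rangeRestrict f.surjective_rangeRestrict
  let mk : R →+* Rb := Ideal.Quotient.mk (Ideal.span {x})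
  have hmap : m.map mk = maximalIdeal Rb :=
    IsLocalRing.map_maximalIdeal_of_surjective mk Ideal.Quotient.mk_surjective
  have h2 : Module.length Rb (Rb ⧸ maximalIdeal Rb ^ N) = Module.length R (R ⧸ I) := by
    rw [← hmap, ← Ideal.map_pow]
    have e : (Rb ⧸ (m ^ N).map mk) ≃ₗ[R] R ⧸ I :=
      (DoubleQuot.quotQuotEquivQuotSupₐ R (Ideal.span {x}) (m ^ N)).toLinearEquiv
    rw [← e.length_eq]
    exact (Module.length_eq_of_surjective Ideal.Quotient.mk_surjective).symm
  rw [← h2, ← coe_qlen (r := N) le_rfl, ← coe_qlen (r := N) le_rfl] at e1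
  rw [← coe_qlen (r := N - o) le_rfl] at h1
  have h3 : ((qlen (m ^ N) : ℕ) : ℕ∞) ≤
      ((qlen (m ^ (N - o)) + qlen (maximalIdeal Rb ^ N) : ℕ) : ℕ∞) := by
    rw [e1, Nat.cast_add]
    exact add_le_add h1 le_rfl
  exact_mod_cast h3

/-- The dimension drops by one. -/
theorem dimNat_quotient_succ (hx : x ∈ maximalIdeal R) (hreg : x ∈ nonZeroDivisors R) :
    dimNat (R ⧸ Ideal.span {x}) + 1 = dimNat R := by
  have h := ringKrullDim_quotient_span_singleton_succ_eq_ringKrullDim_of_mem_nonZeroDivisors hreg hx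
  rw [coe_dimNat (R ⧸ Ideal.span {x}), coe_dimNat R] at h
  exact_mod_cast h

/-- `o * e(R) <= e(R / xR)` for a regular element of order at least `o`. -/
theorem mul_limsup_hsSeq_le {o : ℕ} (ho : 0 < o) (hx : x ∈ maximalIdeal R ^ o)
    (hreg : x ∈ nonZeroDivisors R) :
    (o : ℝ≥0∞) * limsup (hsSeq R) atTop ≤ limsup (hsSeq (R ⧸ Ideal.span {x})) atTop := by
  classical
  set Rb := R ⧸ Ideal.span {x}
  have hd := dimNat_quotient_succ (Ideal.pow_le_self ho.ne' hx) hreg
  set b := dimNat Rb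
  refine le_of_forall_gt_imp_ge_of_dense fun c hc => ?_
  obtain ⟨N₁, hN₁⟩ := eventually_atTop.1 (eventually_lt_of_limsup_lt hc)
  -- the bound on the section
  have hb : ∀ N, N₁ ≤ N → 1 ≤ N →
      (b.factorial : ℝ≥0∞) * (qlen (maximalIdeal Rb ^ N) : ℝ≥0∞) ≤ c * (N : ℝ≥0∞) ^ b := by
    intro N h1 h2
    have h := (hN₁ N h1).le
    rw [hsSeq, ← coe_qlen (r := N) le_rfl, ENat.toENNReal_coe] at h
    rwa [ENNReal.div_le_iff (pow_ne_zero _ (by exact_mod_cast (by omega : N ≠ 0)))
      (ENNReal.pow_ne_top (ENNReal.natCast_ne_top N))] at h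
  let f : ℕ → ℝ≥0∞ := fun N =>
    ((o * (b + 1).factorial * qlen (maximalIdeal R ^ N) : ℕ) : ℝ≥0∞)
  set C₀ := o * (b + 1).factorial * ∑ N ∈ Finset.range (N₁ + o + 1), qlen (maximalIdeal R ^ N)
  have hf : ∀ N, f N ≤ c * ((N + o : ℕ) : ℝ≥0∞) ^ (b + 1) + (C₀ : ℝ≥0∞) := by
    intro N
    induction N using Nat.strong_induction_on with
    | _ N ih =>
      rcases lt_or_ge N (N₁ + o + 1) with hN | hN
      · refine le_trans (Nat.cast_le.2 (Nat.mul_le_mul_left _ ?_)) le_add_self
        exact Finset.single_le_sum (f := fun N => qlen (maximalIdeal R ^ N))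
          (fun _ _ => Nat.zero_le _) (Finset.mem_range.2 hN)
      · have hstep := qlen_pow_le_add (x := x) hx (show o ≤ N by omega)
        have h1 : f N ≤ f (N - o) +
            ((o * (b + 1) : ℕ) : ℝ≥0∞) * ((b.factorial : ℝ≥0∞) *
              (qlen (maximalIdeal Rb ^ N) : ℝ≥0∞)) := by
          refine (Nat.cast_le.2 (Nat.mul_le_mul_left (o * (b + 1).factorial) hstep)).trans
            (le_of_eq ?_)
          simp only [f, Nat.factorial_succ]
          push_cast
          ring
        have h2 := ih (N - o) (by omega)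
        rw [Nat.sub_add_cancel (show o ≤ N by omega)] at h2
        have h3 := hb N (by omega) (by omega)
        refine h1.trans ((add_le_add h2 (mul_le_mul' le_rfl h3)).trans ?_)
        have hbern : N ^ (b + 1) + (b + 1) * N ^ b * o ≤ (N + o) ^ (b + 1) := by
          have h := pow_add_mul_le_add_pow (a := (N : ℤ)) (b := (o : ℤ)) (by positivity)
            (by positivity) (b + 1)
          simp only [Nat.add_sub_cancel] at h
          exact_mod_cast h
        calc c * (N : ℝ≥0∞) ^ (b + 1) + (C₀ : ℝ≥0∞) +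
              ((o * (b + 1) : ℕ) : ℝ≥0∞) * (c * (N : ℝ≥0∞) ^ b)
            = c * ((N ^ (b + 1) + (b + 1) * N ^ b * o : ℕ) : ℝ≥0∞) + (C₀ : ℝ≥0∞) := by
              push_cast; ring
          _ ≤ c * ((N + o : ℕ) : ℝ≥0∞) ^ (b + 1) + (C₀ : ℝ≥0∞) := by
              rw [← Nat.cast_pow]
              gcongr
  rcases eq_or_ne c ⊤ with rfl | hctop
  · exact le_top
  have hlim : Tendsto (fun N : ℕ => c * (((N + o : ℕ) : ℝ≥0∞) ^ (b + 1) / (N : ℝ≥0∞) ^ (b + 1)) +
      (C₀ : ℝ≥0∞) / (N : ℝ≥0∞) ^ (b + 1)) atTop (𝓝 c) := by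
    have h1 := ENNReal.Tendsto.const_mul (tendsto_add_pow_div_pow o (b + 1))
      (Or.inl one_ne_zero) (a := c)
    rw [mul_one] at h1
    have h2 : Tendsto (fun N : ℕ => (C₀ : ℝ≥0∞) / (N : ℝ≥0∞) ^ (b + 1)) atTop (𝓝 0) := by
      have hpow : Tendsto (fun N : ℕ => (N : ℝ≥0∞) ^ (b + 1)) atTop (𝓝 ⊤) := by
        refine tendsto_nhds_top_mono ENNReal.tendsto_nat_nhds_top (Eventually.of_forall fun N => ?_)
        change (N : ℝ≥0∞) ≤ (N : ℝ≥0∞) ^ (b + 1)
        exact_mod_cast Nat.le_self_pow (Nat.succ_ne_zero b) N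
      have h := ENNReal.Tendsto.const_div hpow (Or.inr (ENNReal.natCast_ne_top C₀))
        (a := (C₀ : ℝ≥0∞))
      rwa [ENNReal.div_top] at h
    simpa using h1.add h2
  rw [← ENNReal.limsup_const_mul_of_ne_top (ENNReal.natCast_ne_top o), ← hlim.limsup_eq]
  refine limsup_le_limsup (Eventually.of_forall fun N => ?_)
  show (o : ℝ≥0∞) * hsSeq R N ≤ c * (((N + o : ℕ) : ℝ≥0∞) ^ (b + 1) / (N : ℝ≥0∞) ^ (b + 1)) + _
  rw [← mul_div_assoc, ENNReal.div_add_div_same, hsSeq, ← coe_qlen (r := N) le_rfl,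
    ENat.toENNReal_coe, ← hd, ← mul_div_assoc]
  refine ENNReal.div_le_div_right (le_trans (le_of_eq ?_) (hf N)) _
  simp only [f]
  push_cast
  ring

end Length

/-- Lech's inequality through a hyperplane section containing a field. -/
theorem mul_limsup_hsSeq_le_section {k : Type v} [Field k] {R : Type u} [CommRing R]
    [IsNoetherianRing R] [IsLocalRing R] {S : Type u} [CommRing S] [IsNoetherianRing S]
    [IsLocalRing S] [Algebra R S] [IsLocalHom (algebraMap R S)] [Module.Flat R S]
    {o : ℕ} (ho : 0 < o) {x : R} (hx : x ∈ maximalIdeal R ^ o) (hreg : x ∈ nonZeroDivisors R)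
    (ι : k →+* R ⧸ Ideal.span {x}) [IsLocalRing (S ⧸ Ideal.span {algebraMap R S x})] :
    (o : ℝ≥0∞) * limsup (hsSeq R) atTop ≤
      liminf (hsSeq (S ⧸ Ideal.span {algebraMap R S x})) atTop := by
  have hm : Ideal.span {x} ≤ maximalIdeal R :=
    (Ideal.span_singleton_le_iff_mem _).2 (Ideal.pow_le_self ho.ne' hx)
  have : Nontrivial (R ⧸ Ideal.span {x}) := Ideal.Quotient.nontrivial_iff.2
    (ne_top_of_le_ne_top (maximalIdeal.isMaximal R).ne_top hm)
  have : IsLocalRing (R ⧸ Ideal.span {x}) :=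
    IsLocalRing.of_surjective' (Ideal.Quotient.mk _) Ideal.Quotient.mk_surjective
  have hmap : (Ideal.span {x}).map (algebraMap R S) = Ideal.span {algebraMap R S x} := by
    rw [Ideal.map_span, Set.image_singleton]
  let g : R ⧸ Ideal.span {x} →+* S ⧸ Ideal.span {algebraMap R S x} :=
    Ideal.quotientMap _ (algebraMap R S) (Ideal.map_le_iff_le_comap.1 hmap.le)
  have hgflat : g.Flat := by
    have h := flat_quotient_map (algebraMap R S) (RingHom.flat_algebraMap_iff.2 inferInstance)
      (Ideal.span {x})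
    have key : ∀ (J : Ideal S) (hJ : (Ideal.span {x}).map (algebraMap R S) = J),
        (Ideal.quotientMap J (algebraMap R S) (Ideal.map_le_iff_le_comap.1 hJ.le)).Flat := by
      rintro _ rfl
      exact h
    exact key _ hmap
  have hgloc : IsLocalHom g := by
    refine ⟨fun a ha => ?_⟩
    obtain ⟨a, rfl⟩ := Ideal.Quotient.mk_surjective a
    by_contra hna
    have ha' : a ∈ maximalIdeal R := fun hu => hna (hu.map _)
    have : algebraMap R S a ∈ maximalIdeal S := fun hu =>
      ha' (isUnit_of_map_unit (algebraMap R S) a hu)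
    exact (mem_maximalIdeal _).1 (IsLocalRing.map_maximalIdeal_of_surjective
      (Ideal.Quotient.mk (Ideal.span {algebraMap R S x})) Ideal.Quotient.mk_surjective ▸
        Ideal.mem_map_of_mem _ this) ha
  let : Algebra (R ⧸ Ideal.span {x}) (S ⧸ Ideal.span {algebraMap R S x}) := g.toAlgebra
  have : IsLocalHom (algebraMap (R ⧸ Ideal.span {x}) (S ⧸ Ideal.span {algebraMap R S x})) := hgloc
  have : Module.Flat (R ⧸ Ideal.span {x}) (S ⧸ Ideal.span {algebraMap R S x}) := hgflat
  exact (mul_limsup_hsSeq_le ho hx hreg).trans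
    (lech_equalChar (R ⧸ Ideal.span {x}) ι (S ⧸ Ideal.span {algebraMap R S x}))

end Vale.Agent.P202
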