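import Mathlib

/-!
# P202: normalised Hilbert-Samuel functions
-/

noncomputable section

namespace Vale.Agent.P202

open scoped ENNReal

/-- The Krull dimension as a natural number. -/
def dimNat (A : Type*) [CommRing A] : ℕ := ((ringKrullDim A).unbotD 0).toNat

/-- `d! * ℓ(A / m^N) / N^d`, with `d` the Krull dimension of the local ring `A`. -/
def hsSeq (A : Type*) [CommRing A] [IsLocalRing A] (N : ℕ) : ℝ≥0∞ :=
  ((dimNat A).factorial : ℝ≥0∞) *
    ((Module.length A (A ⧸ IsLocalRing.maximalIdeal A ^ N) : ℕ∞) : ℝ≥0∞) /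
      (N : ℝ≥0∞) ^ dimNat A

end Vale.Agent.P202
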