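import Vale.Agent.P202.Window.Chi
import Vale.Agent.P202.Segre.Slice
import Vale.Agent.P202.Segre.Units
import Vale.Agent.P202.Segre.Finite
import Vale.Agent.P202.HomAlg.Homotopy
import Vale.Agent.P202.Core

/-!
# P202: the window inequality for the Segre module
-/

noncomputable section

namespace Vale.Agent.P202.Window

open Segre IsLocalRing

variable {k : Type*} [Field k] {n K : ℕ}

theorem sliceHyp (k : Type*) [Field k] (n K : ℕ) (hn : 1 ≤ n) : SliceHyp k n K where
  finite t j := slice_finite k n K t j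
  vanish t j := by
    by_cases h : ∃ p : ℕ, 1 ≤ p ∧ j = -((p : ℤ) + 1) ∧
        (∀ b : Fin n, b.val < p → t + (b.val : ℤ) * K ≤ -1) ∧
        ∀ b : Fin n, p ≤ b.val → 1 ≤ t + (b.val : ℤ) * K
    · exact Or.inr h
    · exact Or.inl (slice_subsingleton k n K t j h)
  chi t := slice_chi k n K hn t

theorem compHyp : CompHyp K (comp k n K) := fun _ _ => Iff.rfl

theorem matUp {G : FreeCx (Pw k n)} (hG : G.EntriesIn (maximalIdeal (Pw k n) ^ K)) :
    MatUp G K := fun h g t F hF =>
  smul_coeff_eq_zero (hG h g) (lo := t - K) hF (by omega)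

theorem coe_dA {G : FreeCx (Pw k n)} {N : Submodule (Pw k n) (Lam k n)} (u : G.ι → ↥N) (h : G.ι) :
    ((G.dA ↥N u h : ↥N) : Lam k n) = G.dA (Lam k n) (fun g => (u g : Lam k n)) h := by
  simp [FreeCx.dA_apply]

/-- Homotopies for powers of the variables. -/
theorem exists_null {G : FreeCx (Pw k n)} (hfin : G.FiniteHom (Pw k n) k)
    {L : ℕ} (hlen : G.LengthLE L) (j : Fin (n + 1)) :
    ∃ (N : ℕ) (s : Matrix G.ι G.ι (Pw k n)),
      ((MvPowerSeries.X j : Pw k n) ^ N) • (1 : Matrix G.ι G.ι (Pw k n)) =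
        G.mat * s + s * G.mat := by
  obtain ⟨N, hN⟩ := FreeCx.exists_pow_kills hfin hlen
  have hX : (MvPowerSeries.X j : Pw k n) ∈ maximalIdeal (Pw k n) := by
    rw [mem_maximalIdeal, mem_nonunits_iff, MvPowerSeries.isUnit_iff_constantCoeff]
    simp
  obtain ⟨s, hs⟩ := G.exists_homotopy (hN _ (Ideal.pow_mem_pow hX N)) hlen
  exact ⟨N * (L + 1), s, by rw [pow_mul]; exact hs.symm⟩

theorem acycHyp_of_null {G : FreeCx (Pw k n)}
    (hnull : ∀ j : Fin (n + 1), ∃ (N : ℕ) (s : Matrix G.ι G.ι (Pw k n)),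
      ((MvPowerSeries.X j : Pw k n) ^ N) • (1 : Matrix G.ι G.ι (Pw k n)) =
        G.mat * s + s * G.mat) : AcycHyp G (comp k n K) := by
  classical
  intro ε j u hu hdeg hd
  have hd' : G.dA _ (fun g => (⟨u g, hu g⟩ : comp k n K (some ε))) = 0 := by
    funext h
    refine Subtype.ext ?_
    rw [coe_dA]
    exact congrFun hd h
  obtain ⟨v, hv⟩ := comp_exact K G ε hnull _ hd'
  refine ⟨fun g => if (G.pos g : ℤ) = j + 1 then (v g : Lam k n) else 0, fun g => ?_,
    fun g hg => if_neg hg, funext fun h => ?_⟩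
  · by_cases hg : (G.pos g : ℤ) = j + 1
    · simp only [hg, if_true]
      exact (v g).2
    · simp [hg]
  · have hv' := congrArg Subtype.val (congrFun hv h)
    rw [coe_dA] at hv'
    by_cases hh : (G.pos h : ℤ) = j
    · refine Eq.trans ?_ hv'
      simp only [FreeCx.dA_apply]
      refine Finset.sum_congr rfl fun l _ => ?_
      by_cases hm : G.mat h l = 0
      · simp [hm]
      · rw [if_pos (by have := G.mat_pos h l hm; omega)]
    · rw [hdeg h hh, FreeCx.dA_apply]
      refine Finset.sum_eq_zero fun l _ => ?_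
      by_cases hm : G.mat h l = 0
      · simp [hm]
      · rw [if_neg (by have := G.mat_pos h l hm; omega), smul_zero]

theorem acycHyp {G : FreeCx (Pw k n)} (hfin : G.FiniteHom (Pw k n) k)
    {L : ℕ} (hlen : G.LengthLE L) : AcycHyp G (comp k n K) :=
  acycHyp_of_null (exists_null hfin hlen)

theorem augHyp : AugHyp (U := ↥(comp k n K none)) (comp k n K) (comp k n K none).subtype :=
  ⟨Subtype.val_injective, Submodule.range_subtype _⟩

theorem finite_quotient_pow (N : ℕ) :
    Module.Finite k (Pw k n ⧸ maximalIdeal (Pw k n) ^ N) := by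
  have h1 : Module.Finite k (Pw k n ⧸ maximalIdeal (Pw k n)) := by
    refine Module.Finite.of_surjective
      ((Submodule.mkQ (maximalIdeal (Pw k n))).restrictScalars k ∘ₗ Algebra.linearMap k (Pw k n))
      fun q => ?_
    obtain ⟨f, rfl⟩ := Submodule.Quotient.mk_surjective _ q
    refine ⟨MvPowerSeries.constantCoeff f, ?_⟩
    change Submodule.Quotient.mk (algebraMap k (Pw k n) _) = Submodule.Quotient.mk f
    rw [Submodule.Quotient.eq, mem_maximalIdeal, mem_nonunits_iff,
      MvPowerSeries.isUnit_iff_constantCoeff]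
    simp [MvPowerSeries.algebraMap_apply]
  induction N with
  | zero =>
    rw [pow_zero, Ideal.one_eq_top]
    infer_instance
  | succ N ih =>
    rw [pow_succ]
    exact finite_quotient_mul (maximalIdeal (Pw k n) ^ N) (maximalIdeal (Pw k n))

/-- The elements killing the homology on a module form an ideal. -/
def killIdeal {A : Type*} [CommRing A] (G : FreeCx A) (M : Type*) [AddCommGroup M] [Module A M] :
    Ideal A where
  carrier := {a | G.Kills M a}
  add_mem' := by
    intro a b ha hb f hf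
    obtain ⟨v, hv⟩ := ha f hf
    obtain ⟨w, hw⟩ := hb f hf
    exact ⟨v + w, by rw [map_add, hv, hw, add_smul]⟩
  zero_mem' := fun f _ => ⟨0, by rw [map_zero, zero_smul]⟩
  smul_mem' := by
    intro c a ha f hf
    obtain ⟨v, hv⟩ := ha f hf
    exact ⟨c • v, by rw [map_smul, hv, smul_smul, smul_eq_mul]⟩

theorem finiteHom_aug {G : FreeCx (Pw k n)} (hn : 1 ≤ n) (hfin : G.FiniteHom (Pw k n) k)
    {L : ℕ} (hlen : G.LengthLE L) : G.FiniteHom (comp k n K none) k := by
  obtain ⟨N, hN⟩ := FreeCx.exists_pow_kills hfin hlen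
  have hrad : maximalIdeal (Pw k n) ≤ (killIdeal G (comp k n K none)).radical := fun z hz =>
    ⟨N * (L + 1), by
      rw [pow_mul]
      exact FreeCx.kills_pow (hN _ (Ideal.pow_mem_pow hz N)) hlen _⟩
  obtain ⟨M, hM⟩ := Ideal.exists_pow_le_of_le_radical_of_fg hrad (IsNoetherian.noetherian _)
  have := comp_none_finite (k := k) (n := n) K (by omega)
  have := finite_quotient_pow (k := k) (n := n) M
  exact FreeCx.finiteHom_of_kills (maximalIdeal (Pw k n) ^ M) fun a ha => hM ha

/-- The window inequality. -/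
theorem window (hn : 1 ≤ n) (hK : 1 ≤ K) (G : FreeCx (Pw k n)) (hG : Admissible K G) :
    (G.rank 0 : ℤ) * mainSum n K +
        ∑ i ∈ Finset.Icc 1 (n + 1), (-1) ^ i * (G.rank i : ℤ) * sFun n K (i - 1) ≤
      G.chi (comp k n K none) k :=
  window_le (sliceHyp k n K hn) hn hK compHyp (matUp hG.entries) hG.length
    (acycHyp hG.finite hG.length) augHyp (finiteHom_aug hn hG.finite hG.length)

end Vale.Agent.P202.Window
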